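import Mathlib
import Vale.Agent.P165.Main

namespace Vale.Agent.Results.P165.Full

open Vale.Agent.P165

/-- The Benjamini–Schramm conjecture for bond percolation. -/
theorem result {V : Type*} [Infinite V] (G : SimpleGraph V) [G.LocallyFinite]
    (hconn : G.Connected) (hqt : QuasiTransitive G) (hna : Nonamenable G) : pc G < pu G := by
  classical
  exact pc_lt_pu hconn.preconnected hqt hna

end Vale.Agent.Results.P165.Full
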